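/-
R041 (Basic).  Elementary calculus of `Dbl` and `Emb`:
 * `Dbl.mono`        : L <= L'.
 * `Dbl.image_sim`   : phi with d(phi x, phi y) = s d(x,y) on X, s > 0, keeps the constant.
 * `Dbl.image_two`   : al d <= d(phi x, phi y) <= be d on X, 0 < al, be <= 2 al : constant L*L (two halvings).
 * `Emb.mono`, `Emb.comp` (restriction / precomposition), `Emb.post` (postcomposition), `emb_zero_one` (R^0 -> R^1).
-/
import Claimed.Agent.R041.Defs

set_option autoImplicit false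

namespace Claimed.Agent.R041

variable {M M' F F' : Type*} [PseudoMetricSpace M] [PseudoMetricSpace M'] [PseudoMetricSpace F]
  [PseudoMetricSpace F']

theorem Dbl.mono {X : Set M} {L L' : ℕ} (h : Dbl X L) (hL : L ≤ L') : Dbl X L' := by
  intro x hx r hr
  obtain ⟨C, h1, h2, h3⟩ := h x hx r hr
  exact ⟨C, h1, h2.trans hL, h3⟩

theorem Dbl.image_sim {X : Set M} {L : ℕ} (h : Dbl X L) (φ : M → M') {s : ℝ} (hs : 0 < s)
    (hφ : ∀ x ∈ X, ∀ y ∈ X, dist (φ x) (φ y) = s * dist x y) : Dbl (φ '' X) L := by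
  classical
  rintro _ ⟨x, hx, rfl⟩ r hr
  obtain ⟨C, h1, h2, h3⟩ := h x hx (r / s) (div_pos hr hs)
  refine ⟨C.image φ, ?_, Finset.card_image_le.trans h2, ?_⟩
  · intro c hc
    obtain ⟨c', hc', rfl⟩ := Finset.mem_image.1 hc
    exact ⟨c', h1 c' hc', rfl⟩
  · rintro _ ⟨y, hy, rfl⟩ hyx
    rw [hφ y hy x hx] at hyx
    have h4 : dist y x < r / s := by
      rw [lt_div_iff₀ hs]; linarith
    obtain ⟨c, hc, hyc⟩ := h3 y hy h4
    refine ⟨φ c, Finset.mem_image_of_mem φ hc, ?_⟩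
    rw [hφ y hy c (h1 c hc)]
    have h5 : s * dist y c < s * (r / s / 2) := mul_lt_mul_of_pos_left hyc hs
    have h6 : s * (r / s / 2) = r / 2 := by field_simp
    linarith

theorem Dbl.image_two {X : Set M} {L : ℕ} (h : Dbl X L) (φ : M → M') {α β : ℝ} (hα : 0 < α)
    (hβ : β ≤ 2 * α)
    (hφ : ∀ x ∈ X, ∀ y ∈ X, α * dist x y ≤ dist (φ x) (φ y) ∧ dist (φ x) (φ y) ≤ β * dist x y) :
    Dbl (φ '' X) (L * L) := by
  classical
  rintro _ ⟨x, hx, rfl⟩ r hr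
  have hr' : 0 < r / α := div_pos hr hα
  obtain ⟨C, h1, h2, h3⟩ := h x hx (r / α) hr'
  have hC : ∀ c : M, ∃ C' : Finset M, c ∈ C → ((∀ c' ∈ C', c' ∈ X) ∧ C'.card ≤ L ∧
      ∀ y ∈ X, dist y c < r / α / 2 → ∃ c' ∈ C', dist y c' < r / α / 2 / 2) := by
    intro c
    by_cases hc : c ∈ C
    · obtain ⟨C', h⟩ := h c (h1 c hc) (r / α / 2) (by positivity)
      exact ⟨C', fun _ => h⟩
    · exact ⟨∅, fun h => absurd h hc⟩
  choose C2 hC2 using hC
  refine ⟨(C.biUnion C2).image φ, ?_, ?_, ?_⟩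
  · intro c hc
    obtain ⟨c', hc', rfl⟩ := Finset.mem_image.1 hc
    obtain ⟨c0, hc0, hc'0⟩ := Finset.mem_biUnion.1 hc'
    exact ⟨c', (hC2 c0 hc0).1 c' hc'0, rfl⟩
  · refine Finset.card_image_le.trans ?_
    refine (Finset.card_biUnion_le_card_mul C C2 L (fun c hc => (hC2 c hc).2.1)).trans ?_
    exact Nat.mul_le_mul_right L h2
  · rintro _ ⟨y, hy, rfl⟩ hyx
    have h4 : dist y x < r / α := by
      rw [lt_div_iff₀ hα]
      have := (hφ y hy x hx).1
      linarith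
    obtain ⟨c, hc, hyc⟩ := h3 y hy h4
    obtain ⟨c', hc', hyc'⟩ := (hC2 c hc).2.2 y hy hyc
    refine ⟨φ c', Finset.mem_image_of_mem φ (Finset.mem_biUnion.2 ⟨c, hc, hc'⟩), ?_⟩
    have h5 := (hφ y hy c' ((hC2 c hc).1 c' hc')).2
    have h6 : β * dist y c' ≤ 2 * α * dist y c' :=
      mul_le_mul_of_nonneg_right hβ dist_nonneg
    have h7 : 2 * α * dist y c' < 2 * α * (r / α / 2 / 2) :=
      mul_lt_mul_of_pos_left hyc' (by positivity)
    have h8 : 2 * α * (r / α / 2 / 2) = r / 2 := by field_simp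
    linarith

theorem Emb.mono {X : Set M} {D D' : ℝ} (h : Emb X F D) (hD : D ≤ D') : Emb X F D' := by
  obtain ⟨f, a, ha, hf⟩ := h
  refine ⟨f, a, ha, fun x hx y hy => ⟨(hf x hx y hy).1, (hf x hx y hy).2.trans ?_⟩⟩
  have h1 : 0 ≤ a * dist x y := mul_nonneg ha.le dist_nonneg
  calc D * a * dist x y = D * (a * dist x y) := by ring
    _ ≤ D' * (a * dist x y) := mul_le_mul_of_nonneg_right hD h1
    _ = D' * a * dist x y := by ring

/-- Precomposition with a map `φ : X → S` of distortion `β/α`. -/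
theorem Emb.comp {X : Set M} {S : Set M'} {D α β : ℝ} (h : Emb S F D) (hD : 0 ≤ D) (φ : M → M')
    (hα : 0 < α) (hmap : ∀ x ∈ X, φ x ∈ S)
    (hφ : ∀ x ∈ X, ∀ y ∈ X, α * dist x y ≤ dist (φ x) (φ y) ∧ dist (φ x) (φ y) ≤ β * dist x y) :
    Emb X F (D * (β / α)) := by
  obtain ⟨f, a, ha, hf⟩ := h
  refine ⟨f ∘ φ, a * α, mul_pos ha hα, fun x hx y hy => ?_⟩
  obtain ⟨h1, h2⟩ := hf (φ x) (hmap x hx) (φ y) (hmap y hy)
  obtain ⟨h3, h4⟩ := hφ x hx y hy
  constructor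
  · calc a * α * dist x y = a * (α * dist x y) := by ring
      _ ≤ a * dist (φ x) (φ y) := mul_le_mul_of_nonneg_left h3 ha.le
      _ ≤ _ := h1
  · calc dist ((f ∘ φ) x) ((f ∘ φ) y) ≤ D * a * dist (φ x) (φ y) := h2
      _ ≤ D * a * (β * dist x y) := mul_le_mul_of_nonneg_left h4 (mul_nonneg hD ha.le)
      _ = D * (β / α) * (a * α) * dist x y := by field_simp

/-- Postcomposition with a map `ψ : F → F'` of distortion `β/α`. -/
theorem Emb.post {X : Set M} {D α β : ℝ} (h : Emb X F D) (ψ : F → F')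
    (hα : 0 < α) (hβ : 0 ≤ β)
    (hψ : ∀ u v : F, α * dist u v ≤ dist (ψ u) (ψ v) ∧ dist (ψ u) (ψ v) ≤ β * dist u v) :
    Emb X F' (D * (β / α)) := by
  obtain ⟨f, a, ha, hf⟩ := h
  refine ⟨ψ ∘ f, a * α, mul_pos ha hα, fun x hx y hy => ?_⟩
  obtain ⟨h1, h2⟩ := hf x hx y hy
  obtain ⟨h3, h4⟩ := hψ (f x) (f y)
  constructor
  · calc a * α * dist x y = α * (a * dist x y) := by ring
      _ ≤ α * dist (f x) (f y) := mul_le_mul_of_nonneg_left h1 hα.le
      _ ≤ _ := h3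
  · calc dist ((ψ ∘ f) x) ((ψ ∘ f) y) ≤ β * dist (f x) (f y) := h4
      _ ≤ β * (D * a * dist x y) := mul_le_mul_of_nonneg_left h2 hβ
      _ = D * (β / α) * (a * α) * dist x y := by field_simp

theorem emb_zero_one {X : Set M} {D : ℝ} (h : Emb X (E 0) D) : Emb X (E 1) D := by
  obtain ⟨f, a, ha, hf⟩ := h
  refine ⟨fun _ => 0, a, ha, fun x hx y hy => ?_⟩
  have h1 := (hf x hx y hy).1
  have h2 : dist (f x) (f y) = 0 := by
    rw [Subsingleton.elim (f x) (f y), dist_self]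
  have h3 : 0 ≤ a * dist x y := mul_nonneg ha.le dist_nonneg
  have h4 : a * dist x y = 0 := le_antisymm (h2 ▸ h1) h3
  rw [dist_self, mul_assoc, h4]
  simp

end Claimed.Agent.R041
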