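/-
R041 (Bridge).  From the set-style notions `Dbl`, `Emb` to the frozen notions of Def_0066 / Def_0067 (subtype style) and back.
-/
import Claimed.Agent.R041.Basic

set_option autoImplicit false

namespace Claimed.Agent.R041

open Claims

theorem doubling67_of_dbl {S : Set C0067.DoublingHilbert.RealL2} {L : ℕ} (h : Dbl S L) :
    C0067.DoublingHilbert.DoublingAtMost S L := by
  classical
  intro x r hr
  obtain ⟨C, h1, h2, h3⟩ := h x.1 x.2 r hr
  refine ⟨C.subtype (· ∈ S), ?_, ?_⟩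
  · rw [Finset.card_subtype]
    exact (Finset.card_filter_le _ _).trans h2
  · intro y hy
    obtain ⟨c, hc, hyc⟩ := h3 y.1 y.2 hy
    exact ⟨⟨c, h1 c hc⟩, Finset.mem_subtype.2 hc, hyc⟩

theorem doubling66_of_dbl {B : Type*} [MetricSpace B] {K : Set B} {L : ℕ} (h : Dbl K L) :
    C0066.CompactBanach.DoublingAtMost K L := by
  classical
  intro x r hr
  obtain ⟨C, h1, h2, h3⟩ := h x.1 x.2 r hr
  refine ⟨C.subtype (· ∈ K), ?_, ?_⟩
  · rw [Finset.card_subtype]
    exact (Finset.card_filter_le _ _).trans h2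
  · intro y hy
    obtain ⟨c, hc, hyc⟩ := h3 y.1 y.2 hy
    refine ⟨⟨c, h1 c hc⟩, Finset.mem_subtype.2 hc, ?_⟩
    have e : r / ((2 : ℕ) : ℝ) = r / 2 := by norm_num
    rw [e]
    exact hyc

theorem emb_of_admits67 {S : Set C0067.DoublingHilbert.RealL2} {k : ℕ}
    (h : C0067.DoublingHilbert.AdmitsBiLipschitzEmbedding S k) :
    ∃ D : ℝ, 1 ≤ D ∧ Emb S (E k) D := by
  classical
  obtain ⟨f, a, ha, D, hD, hf⟩ := h
  refine ⟨D, hD, fun x => if hx : x ∈ S then f ⟨x, hx⟩ else 0, a, ha, fun x hx y hy => ?_⟩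
  simp only [dif_pos hx, dif_pos hy]
  exact hf ⟨x, hx⟩ ⟨y, hy⟩

theorem emb_of_admits66 {B : Type*} [MetricSpace B] {K : Set B} {F : Type*} [MetricSpace F]
    [Nonempty F] (h : C0066.CompactBanach.AdmitsBiLipschitzEmbedding K F) :
    ∃ D : ℝ, 1 ≤ D ∧ Emb K F D := by
  classical
  obtain ⟨f, a, ha, D, hD, hf⟩ := h
  refine ⟨D, hD, fun x => if hx : x ∈ K then f ⟨x, hx⟩ else Classical.arbitrary F, a, ha,
    fun x hx y hy => ?_⟩
  simp only [dif_pos hx, dif_pos hy]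
  exact hf ⟨x, hx⟩ ⟨y, hy⟩

/-- A finite-dimensional normed space is bi-Lipschitz to a Euclidean space. -/
theorem emb_euclid_of_fd {M : Type*} [PseudoMetricSpace M] {X : Set M} {F : Type*}
    [NormedAddCommGroup F] [NormedSpace ℝ F] [FiniteDimensional ℝ F] {D : ℝ} (hD : 0 ≤ D)
    (h : Emb X F D) : ∃ D' : ℝ, 0 ≤ D' ∧ Emb X (E (Module.finrank ℝ F)) D' := by
  let T : F ≃L[ℝ] E (Module.finrank ℝ F) := toEuclidean
  have h1 : ∀ u v : F, (‖(T.symm : E (Module.finrank ℝ F) →L[ℝ] F)‖ + 1)⁻¹ * dist u v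
      ≤ dist (T u) (T v) ∧ dist (T u) (T v) ≤ ‖(T : F →L[ℝ] E (Module.finrank ℝ F))‖ * dist u v := by
    intro u v
    constructor
    · have h2 : dist u v ≤ ‖(T.symm : E (Module.finrank ℝ F) →L[ℝ] F)‖ * dist (T u) (T v) := by
        rw [dist_eq_norm, dist_eq_norm, ← map_sub]
        have := (T.symm : E (Module.finrank ℝ F) →L[ℝ] F).le_opNorm (T (u - v))
        simpa using this
      have h3 : 0 < ‖(T.symm : E (Module.finrank ℝ F) →L[ℝ] F)‖ + 1 := by positivity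
      rw [inv_mul_le_iff₀ h3]
      have h4 : 0 ≤ dist (T u) (T v) := dist_nonneg
      nlinarith
    · rw [dist_eq_norm, dist_eq_norm, ← map_sub]
      exact (T : F →L[ℝ] E (Module.finrank ℝ F)).le_opNorm (u - v)
  refine ⟨_, ?_, h.post T (by positivity) (norm_nonneg _) h1⟩
  positivity

end Claimed.Agent.R041
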