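/-
R041 (FDL2).  `CruxFD 76800 => CruxL2`: R^m embeds isometrically in l2 (orthonormal family lp.single 2 i 1).
-/
import Claimed.Agent.R041.L2

set_option autoImplicit false

namespace Claimed.Agent.R041

open Claims Claims.C0067.DoublingHilbert

theorem orthonormal_single_l2 :
    Orthonormal ℝ (fun i : ℕ => (lp.single 2 i (1 : ℝ) : RealL2)) := by
  classical
  rw [orthonormal_iff_ite]
  intro i j
  rw [lp.inner_single_left]
  by_cases hij : i = j
  · subst hij
    simp
  · simp [hij]

theorem exists_isometry_l2 (m : ℕ) : ∃ ι : E m → RealL2, ∀ x y, dist (ι x) (ι y) = dist x y := by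
  classical
  let b := (EuclideanSpace.basisFun (Fin m) ℝ)
  let f : E m →ₗ[ℝ] RealL2 := b.toBasis.constr ℝ (fun i : Fin m => (lp.single 2 (i : ℕ) (1 : ℝ) : RealL2))
  have hf : Orthonormal ℝ (f ∘ b.toBasis) := by
    have e : f ∘ b.toBasis = fun i : Fin m => (lp.single 2 (i : ℕ) (1 : ℝ) : RealL2) := by
      funext i
      simp [f]
    rw [e]
    exact orthonormal_single_l2.comp _ Fin.val_injective
  have hb : Orthonormal ℝ b.toBasis := by
    rw [b.coe_toBasis]; exact b.orthonormal
  let g := f.isometryOfOrthonormal hb hf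
  exact ⟨g, fun x y => g.dist_map x y⟩

theorem cruxL2_of_cruxFD (h : CruxFD 76800) : CruxL2 := by
  intro k N hk
  obtain ⟨m, X, hXc, hXd, hXe⟩ := h k N hk
  obtain ⟨ι, hι⟩ := exists_isometry_l2 m
  refine ⟨ι '' X, ?_, ?_, ?_⟩
  · have hiso : Isometry ι := Isometry.of_dist_eq hι
    exact (hXc.image hiso.continuous).isBounded
  · exact hXd.image_sim ι one_pos (fun x _ y _ => by rw [hι, one_mul])
  · intro hemb
    apply hXe
    have h2 : Emb X (E k) ((N : ℝ) * (1 / 1)) :=
      hemb.comp (Nat.cast_nonneg N) ι one_pos (fun x hx => ⟨x, hx, rfl⟩)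
        (fun x _ y _ => ⟨by rw [hι, one_mul], by rw [hι, one_mul]⟩)
    simpa using h2

end Claimed.Agent.R041
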