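/-
R041 (Glue).  LACUNARY GLUING WITHOUT LOSS.  Pieces P_n in a metric space, base point o, radii R_n > 0, R_{n+1} <= R_n/16,
   7/8 R_n <= d(x,o) <= 9/8 R_n  and  d(x,y) <= R_n/4  on P_n,  every P_n doubling with constant L >= 2.
Then every T with  U P_n  c  T  c  {o} u U P_n  is doubling with the SAME constant L.
Proof.  Ball B(x,r), m0 = least index of a piece met by the ball, z a point of P_{m0} in the ball.
  r <= R_{m0}/2 : x lies in P_{m0} and the ball sees only P_{m0}: use the centres of P_{m0}.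
  r >  R_{m0}/2 : P_{m0} c B(z,r/2) (diameter R/4);  o and all later pieces lie within 9/128 R_{m0} of o, hence within 9/64 R_{m0} < r/2 of each other: 2 centres.
  no piece met  : x = o and the ball is {o}.
-/
import Claimed.Agent.R041.Basic

set_option autoImplicit false

namespace Claimed.Agent.R041

theorem radius_le_of_lt {R : ℕ → ℝ} (hR0 : ∀ n, 0 < R n) (hR : ∀ n, R (n + 1) ≤ R n / 16)
    {m j : ℕ} (h : m < j) : R j ≤ R m / 16 := by
  obtain ⟨d, rfl⟩ := Nat.exists_eq_add_of_lt h
  clear h
  induction d with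
  | zero => exact hR m
  | succ d ih =>
    have h1 := hR (m + d + 1)
    have h2 := hR0 (m + d + 1)
    have e : m + (d + 1) + 1 = m + d + 1 + 1 := by ring
    rw [e]
    linarith

theorem dbl_glue {M : Type*} [PseudoMetricSpace M] (o : M) (P : ℕ → Set M) (R : ℕ → ℝ) (L : ℕ)
    (hL : 2 ≤ L) (hR0 : ∀ n, 0 < R n) (hR : ∀ n, R (n + 1) ≤ R n / 16)
    (hlo : ∀ n, ∀ x ∈ P n, 7 / 8 * R n ≤ dist x o) (hhi : ∀ n, ∀ x ∈ P n, dist x o ≤ 9 / 8 * R n)
    (hdiam : ∀ n, ∀ x ∈ P n, ∀ y ∈ P n, dist x y ≤ R n / 4) (hD : ∀ n, Dbl (P n) L)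
    (T : Set M) (hT1 : ⋃ n, P n ⊆ T) (hT2 : T ⊆ insert o (⋃ n, P n)) : Dbl T L := by
  classical
  intro x hx r hr
  have hTcase : ∀ y ∈ T, y = o ∨ ∃ j, y ∈ P j := by
    intro y hy
    rcases hT2 hy with h | h
    · exact Or.inl h
    · exact Or.inr (Set.mem_iUnion.1 h)
  by_cases hI : ∃ m, ∃ z ∈ P m, dist z x < r
  · obtain ⟨m0, ⟨z, hz, hzx⟩, hmin⟩ : ∃ m0, (∃ z ∈ P m0, dist z x < r) ∧
        ∀ j, (∃ z ∈ P j, dist z x < r) → m0 ≤ j :=
      ⟨Nat.find hI, Nat.find_spec hI, fun j hj => Nat.find_min' hI hj⟩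
    have hRm := hR0 m0
    have hzT : z ∈ T := hT1 (Set.mem_iUnion.2 ⟨m0, hz⟩)
    have hfar : ∀ j, m0 < j → ∀ y ∈ P j, dist y o ≤ 9 / 128 * R m0 := by
      intro j hj y hy
      have h1 := hhi j y hy
      have h2 := radius_le_of_lt hR0 hR hj
      linarith
    by_cases hr2 : r ≤ R m0 / 2
    · have hxP : x ∈ P m0 := by
        rcases hTcase x hx with rfl | ⟨n, hn⟩
        · have := hlo m0 z hz
          linarith
        · have h1 : m0 ≤ n := hmin n ⟨x, hn, by simpa using hr⟩
          rcases eq_or_lt_of_le h1 with rfl | hlt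
          · exact hn
          · have h2 := hfar n hlt x hn
            have h3 := hlo m0 z hz
            have h4 := dist_triangle z x o
            linarith
      obtain ⟨C, h1, h2, h3⟩ := hD m0 x hxP r hr
      refine ⟨C, fun c hc => hT1 (Set.mem_iUnion.2 ⟨m0, h1 c hc⟩), h2, fun y hy hyx => ?_⟩
      have hyP : y ∈ P m0 := by
        have h5 := hlo m0 x hxP
        rcases hTcase y hy with rfl | ⟨j, hj⟩
        · rw [dist_comm] at hyx
          linarith
        · have h6 : m0 ≤ j := hmin j ⟨y, hj, hyx⟩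
          rcases eq_or_lt_of_le h6 with rfl | hlt
          · exact hj
          · have h7 := hfar j hlt y hj
            have h8 := dist_triangle x y o
            rw [dist_comm x y] at h8
            linarith
      exact h3 y hyP hyx
    · rw [not_le] at hr2
      obtain ⟨c2, hc2, hc2o⟩ : ∃ c2 ∈ T, ∀ y ∈ T, dist y o ≤ 9 / 128 * R m0 →
          dist y c2 ≤ 9 / 64 * R m0 := by
        by_cases hrest : ∃ c ∈ T, dist c o ≤ 9 / 128 * R m0
        · obtain ⟨c, hc, hco⟩ := hrest
          refine ⟨c, hc, fun y _ hyo => ?_⟩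
          have h1 := dist_triangle y o c
          rw [dist_comm o c] at h1
          linarith
        · exact ⟨z, hzT, fun y hy hyo => absurd ⟨y, hy, hyo⟩ hrest⟩
      refine ⟨{z, c2}, ?_, Finset.card_le_two.trans hL, fun y hy hyx => ?_⟩
      · intro c hc
        rcases Finset.mem_insert.1 hc with rfl | hc
        · exact hzT
        · rw [Finset.mem_singleton.1 hc]; exact hc2
      · rcases hTcase y hy with rfl | ⟨j, hj⟩
        · refine ⟨c2, by simp, ?_⟩
          have h1 := hc2o y hy (by rw [dist_self]; positivity)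
          linarith
        · have h6 : m0 ≤ j := hmin j ⟨y, hj, hyx⟩
          rcases eq_or_lt_of_le h6 with rfl | hlt
          · refine ⟨z, by simp, ?_⟩
            have h1 := hdiam m0 y hj z hz
            linarith
          · refine ⟨c2, by simp, ?_⟩
            have h1 := hc2o y hy (hfar j hlt y hj)
            linarith
  · refine ⟨{x}, ?_, ?_, fun y hy hyx => ⟨x, by simp, ?_⟩⟩
    · intro c hc
      rw [Finset.mem_singleton.1 hc]; exact hx
    · rw [Finset.card_singleton]; omega
    · have hxo : x = o := by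
        rcases hTcase x hx with h | ⟨n, hn⟩
        · exact h
        · exact absurd ⟨n, x, hn, by simpa using hr⟩ hI
      have hyo : y = o := by
        rcases hTcase y hy with h | ⟨n, hn⟩
        · exact h
        · exact absurd ⟨n, y, hn, hyx⟩ hI
      rw [hxo, hyo, dist_self]
      positivity

end Claimed.Agent.R041
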