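/-
R041 (Place).  * `place_*` : position of the point R u + w, |u| = 1, |w| <= R/8, relative to 0.
 * `isCompact_insert_iUnion` : compact pieces shrinking to o: {o} u U P_n is compact (ultrafilter argument).
 * `radius_*` : the radii R_n = (1/16)^n.
-/
import Claimed.Agent.R041.Basic

set_option autoImplicit false

namespace Claimed.Agent.R041

open Filter Topology

section place

variable {V : Type*} [NormedAddCommGroup V] [NormedSpace ℝ V]

theorem place_lo {u w : V} {R : ℝ} (hu : ‖u‖ = 1) (hR : 0 < R) (hw : ‖w‖ ≤ R / 8) :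
    7 / 8 * R ≤ dist (R • u + w) 0 := by
  rw [dist_zero_right]
  have h1 : ‖R • u‖ = R := by rw [norm_smul, hu, mul_one, Real.norm_of_nonneg hR.le]
  have h2 : ‖R • u‖ ≤ ‖R • u + w‖ + ‖w‖ := by
    have := norm_sub_le (R • u + w) w
    simpa using this
  linarith

theorem place_hi {u w : V} {R : ℝ} (hu : ‖u‖ = 1) (hR : 0 < R) (hw : ‖w‖ ≤ R / 8) :
    dist (R • u + w) 0 ≤ 9 / 8 * R := by
  rw [dist_zero_right]
  have h1 : ‖R • u‖ = R := by rw [norm_smul, hu, mul_one, Real.norm_of_nonneg hR.le]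
  have h2 := norm_add_le (R • u) w
  linarith

theorem place_diam {u w w' : V} {R : ℝ} (hw : ‖w‖ ≤ R / 8) (hw' : ‖w'‖ ≤ R / 8) :
    dist (R • u + w) (R • u + w') ≤ R / 4 := by
  rw [dist_add_left, dist_eq_norm]
  have := norm_sub_le w w'
  linarith

end place

theorem radius_pos (n : ℕ) : (0 : ℝ) < (1 / 16 : ℝ) ^ n := by positivity

theorem radius_succ (n : ℕ) : (1 / 16 : ℝ) ^ (n + 1) ≤ (1 / 16 : ℝ) ^ n / 16 := by
  rw [pow_succ]; linarith [radius_pos n]

theorem radius_tendsto : Tendsto (fun n : ℕ => 9 / 8 * (1 / 16 : ℝ) ^ n) atTop (𝓝 0) := by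
  have h := tendsto_pow_atTop_nhds_zero_of_lt_one (r := (1 / 16 : ℝ)) (by norm_num) (by norm_num)
  simpa using h.const_mul (9 / 8 : ℝ)

theorem isCompact_insert_iUnion {M : Type*} [PseudoMetricSpace M] (o : M) (P : ℕ → Set M)
    (hP : ∀ n, IsCompact (P n)) (ρ : ℕ → ℝ) (hρ : Tendsto ρ atTop (𝓝 0))
    (hb : ∀ n, ∀ x ∈ P n, dist x o ≤ ρ n) : IsCompact (insert o (⋃ n, P n)) := by
  rw [isCompact_iff_ultrafilter_le_nhds]
  intro f hf
  by_cases h : ∃ n, P n ∈ f
  · obtain ⟨n, hn⟩ := h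
    obtain ⟨x, hx, hfx⟩ := (isCompact_iff_ultrafilter_le_nhds.1 (hP n)) f (le_principal_iff.2 hn)
    exact ⟨x, Set.mem_insert_of_mem _ (Set.mem_iUnion.2 ⟨n, hx⟩), hfx⟩
  · refine ⟨o, Set.mem_insert _ _, ?_⟩
    have hc : ∀ n, (P n)ᶜ ∈ f := fun n =>
      Ultrafilter.compl_mem_iff_notMem.2 (fun hn => h ⟨n, hn⟩)
    rw [Metric.nhds_basis_ball.ge_iff]
    intro ε hε
    obtain ⟨N, hN⟩ := (Metric.tendsto_atTop.1 hρ) ε hε
    have h1 : (⋂ n ∈ Finset.range N, (P n)ᶜ) ∈ f :=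
      (Filter.biInter_finset_mem (Finset.range N)).2 (fun n _ => hc n)
    have h2 : insert o (⋃ n, P n) ∈ f := le_principal_iff.1 hf
    refine Filter.mem_of_superset (Filter.inter_mem h1 h2) ?_
    rintro x ⟨hx1, hx2⟩
    rcases hx2 with rfl | hx2
    · exact Metric.mem_ball_self hε
    · obtain ⟨n, hn⟩ := Set.mem_iUnion.1 hx2
      have hnN : N ≤ n := by
        by_contra hlt
        have := Set.mem_iInter₂.1 hx1 n (Finset.mem_range.2 (not_le.1 hlt))
        exact this hn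
      have h3 := hN n hnN
      rw [Real.dist_eq, sub_zero] at h3
      exact lt_of_le_of_lt (hb n x hn) (lt_of_le_of_lt (le_abs_self _) h3)

end Claimed.Agent.R041
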